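import Vale.Agent.Lib.P028.Scaling

namespace Vale.Agent.Results.P028.ShiftScaling

open MeasureTheory Vale.Agent.Lib.P028

/-- If the weak inhomogeneous Duffin-Schaeffer statement holds for the shift `γ`, then it holds
for every shift `n γ + m` with integers `n ≠ 0` and `m`. -/
theorem result (γ : ℝ) (n m : ℤ) (hn : n ≠ 0) (h : WeakIDS γ) :
    WeakIDS ((n : ℝ) * γ + (m : ℝ)) :=
  weakIDS_int_affine γ n m hn h

end Vale.Agent.Results.P028.ShiftScaling
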